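import Vale.Agent.P050.H340.Sub.Star
import Vale.Agent.P050.H936.Spec2

/-!
The star law: marginals along an injection: [T3].
-/

set_option linter.unusedSectionVars false

namespace Vale.Agent.P050.H340.Sub

open Finset Vale.Agent.P050.Cart Vale.Agent.P050.Join Vale.Agent.P050.M18 Vale.Agent.P050.H546
open Vale.Agent.P050.H936

section prod

variable {V D U : Type} [Fintype V] [DecidableEq V] [Fintype D] [DecidableEq D] [Fintype U]

theorem sum_prod_inj (k : V → U → ℝ) {i : D → V} (hi : Function.Injective i)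
    (hk : ∀ w, (∀ d, i d ≠ w) → ∑ t, k w t = 1) (F : (D → U) → ℝ) :
    ∑ x : V → U, (∏ w, k w (x w)) * F (fun d => x (i d)) =
      ∑ y : D → U, (∏ d, k (i d) (y d)) * F y := by
  classical
  have h1 : ∀ x : V → U, (∏ w, k w (x w)) * F (fun d => x (i d)) = ∑ y : D → U,
      (∏ w, (k w (x w) * ∏ d, if i d = w then (if x w = y d then (1 : ℝ) else 0) else 1)) * F y := by
    intro x
    have h2 : ∀ y : D → U,
        ∏ w, (k w (x w) * ∏ d, if i d = w then (if x w = y d then (1 : ℝ) else 0) else 1) =
        (∏ w, k w (x w)) * ∏ d, if x (i d) = y d then (1 : ℝ) else 0 := by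
      intro y
      rw [Finset.prod_mul_distrib, Finset.prod_comm]
      congr 1
      refine prod_congr rfl fun d _ => ?_
      rw [Finset.prod_ite_eq univ (i d) (fun w => if x w = y d then (1 : ℝ) else 0),
        if_pos (mem_univ _)]
    rw [Finset.sum_eq_single (fun d => x (i d))]
    · rw [h2, prod_congr rfl fun d _ => if_pos rfl, prod_const_one, mul_one]
    · intro y _ hy
      rw [h2]
      have h3 : ∃ d, x (i d) ≠ y d := by
        by_contra h
        push Not at h
        exact hy (funext fun d => (h d).symm)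
      obtain ⟨d, hd⟩ := h3
      rw [Finset.prod_eq_zero (mem_univ d) (if_neg hd), mul_zero, zero_mul]
    · intro h
      exact absurd (mem_univ _) h
  simp_rw [h1]
  rw [Finset.sum_comm]
  refine sum_congr rfl fun y _ => ?_
  rw [← Finset.sum_mul, sum_prod_pi (fun w t => k w t * ∏ d, if i d = w then
    (if t = y d then (1 : ℝ) else 0) else 1)]
  congr 1
  symm
  refine Fintype.prod_of_injective i hi _ _ (fun w hw => ?_) fun d => ?_
  · have hw' : ∀ d, i d ≠ w := fun d hd => hw ⟨d, hd⟩
    refine Eq.trans (sum_congr rfl fun t _ => ?_) (hk w hw')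
    rw [prod_congr rfl fun d _ => if_neg (hw' d), prod_const_one, mul_one]
  · have h4 : ∀ t, ∏ d', (if i d' = i d then (if t = y d' then (1 : ℝ) else 0) else 1) =
        if t = y d then (1 : ℝ) else 0 := by
      intro t
      rw [Finset.prod_eq_single d]
      · rw [if_pos rfl]
      · intro d' _ hd'
        rw [if_neg fun h => hd' (hi h)]
      · intro h
        exact absurd (mem_univ _) h
    simp_rw [h4]
    rw [Finset.sum_eq_single (y d)]
    · rw [if_pos rfl, mul_one]
    · intro t _ ht
      rw [if_neg ht, mul_zero]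
    · intro h
      exact absurd (mem_univ _) h

variable {μ : U → ℝ} {K : V → U → U → ℝ}

theorem sum_sl_inj (hK1 : ∀ z, μ z ≠ 0 → ∀ v, ∑ t, K v z t = 1) {i : D → V}
    (hi : Function.Injective i) (F : U × (D → U) → ℝ) :
    ∑ ω, sl μ K ω * F (ω.1, fun d => ω.2 (i d)) = ∑ ω, sl μ (fun d => K (i d)) ω * F ω := by
  rw [Fintype.sum_prod_type, Fintype.sum_prod_type]
  refine sum_congr rfl fun z _ => ?_
  by_cases h0 : μ z = 0
  · simp [sl, h0]
  have h1 : ∀ x : V → U, sl μ K (z, x) * F (z, fun d => x (i d)) =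
      (∏ w, K w z (x w)) * (μ z * F (z, fun d => x (i d))) := fun x => by
    unfold sl
    ring
  have h2 : ∀ y : D → U, sl μ (fun d => K (i d)) (z, y) * F (z, y) =
      (∏ d, K (i d) z (y d)) * (μ z * F (z, y)) := fun y => by
    unfold sl
    ring
  simp_rw [h1, h2]
  exact sum_prod_inj (fun w => K w z) hi (fun w _ => hK1 z h0 w) (fun y => μ z * F (z, y))

end prod

section main

variable {V D U : Type} [Fintype V] [DecidableEq V] [Fintype D] [DecidableEq D] [Fintype U]
  [DecidableEq U] {Q : U × U → ℝ}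

theorem star2_nn (hE : Edge Q) (m : V → ℕ) (ω : U × (V → U)) : 0 ≤ star2 Q m ω :=
  sl_nonneg (μ := mm Q) (K := fun v => zp (nb Q) (m v)) hE.mm_nn
    (fun v z t => zp_nonneg (fun a b => hE.nb_nn a b) _ z t) ω

theorem star2_row (hE : Edge Q) (m : V → ℕ) :
    ∀ z, mm Q z ≠ 0 → ∀ v : V, ∑ t, zp (nb Q) (m v) z t = 1 := fun z hz _ => row_one hE _ z hz

theorem star2_tot (hE : Edge Q) (m : V → ℕ) : ∑ ω, star2 Q m ω = 1 := by
  refine sl_total (μ := mm Q) (K := fun v => zp (nb Q) (m v)) (star2_row hE m) ?_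
  rw [← hE.tot, Fintype.sum_prod_type]
  rfl

/-- expectations of functions of `z` and of the variables `x_(i d)` -/
theorem sum_star2_inj (hE : Edge Q) (m : V → ℕ) {i : D → V} (hi : Function.Injective i)
    (F : U × (D → U) → ℝ) : ∑ ω, star2 Q m ω * F (ω.1, fun d => ω.2 (i d)) =
      ∑ ω, star2 Q (fun d => m (i d)) ω * F ω :=
  sum_sl_inj (μ := mm Q) (K := fun v => zp (nb Q) (m v)) (star2_row hE m) hi F

/-- [T3] the marginal of the star law along an injection -/
theorem mar_star2_inj (hE : Edge Q) (m : V → ℕ) {i : D → V} (hi : Function.Injective i) :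
    mar (star2 Q m) (fun ω => (ω.1, fun d => ω.2 (i d))) = star2 Q (fun d => m (i d)) := by
  funext p
  rw [mar_of_sum (P' := star2 Q (fun d => m (i d))) (f' := fun ω => ω)
    (sum_star2_inj hE m hi) p, mar_id]

/-- the law of `z` and of one end -/
theorem mar_star2_one (hE : Edge Q) (m : V → ℕ) (v : V) :
    mar (star2 Q m) (fun ω => (ω.1, ω.2 v)) = EE Q (m v) := by
  funext p
  exact mar_sl_one (μ := mm Q) (K := fun v => zp (nb Q) (m v)) (star2_row hE m) v p

/-- the law of `z` -/
theorem mar_star2_ctr (hE : Edge Q) (m : V → ℕ) : mar (star2 Q m) (fun ω => ω.1) = mm Q := by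
  funext a
  have h := mar_of_sum (P := star2 Q m) (f := fun ω => ω.1) (P' := mm Q) (f' := fun z => z)
    (fun F => sum_sl (μ := mm Q) (K := fun v => zp (nb Q) (m v)) (star2_row hE m) F) a
  rw [h, mar_id]

/-- the law of one end -/
theorem mar_star2_end (hE : Edge Q) (m : V → ℕ) (v : V) :
    mar (star2 Q m) (fun ω => ω.2 v) = mm Q := by
  rw [← H23.EE_snd hE (m v), ← mar_star2_one hE m v]
  funext b
  rw [mar_mar]

/-- the entropy of the star law -/
theorem ent_star2 (hE : Edge Q) (m : V → ℕ) :
    Cart.ent (star2 Q m) (fun ω => ω) = aQ Q + ∑ v, (hh Q (m v) - aQ Q) := by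
  have h := ent_sl (μ := mm Q) (K := fun v : V => zp (nb Q) (m v)) hE.mm_nn
    (fun v z t => zp_nonneg (fun a b => hE.nb_nn a b) _ z t) (star2_row hE m)
  exact h

/-- [T3] the entropy of `z` and of the variables `x_(i d)` -/
theorem ent_star2_inj (hE : Edge Q) (m : V → ℕ) {i : D → V} (hi : Function.Injective i) :
    Cart.ent (star2 Q m) (fun ω => (ω.1, fun d => ω.2 (i d))) =
      aQ Q + ∑ d, (hh Q (m (i d)) - aQ Q) := by
  rw [← ent_star2 hE]
  refine ent_law fun a => ?_
  rw [mar_star2_inj hE m hi, mar_id]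

/-- the entropy of the ends -/
theorem ent_star2_ends (hE : Edge Q) (m : V → ℕ) {i : D → V} (hi : Function.Injective i) :
    Cart.ent (star2 Q m) (fun ω => fun d => ω.2 (i d)) +
        (∑ v, (hh Q (m v) - aQ Q) - ∑ d, (hh Q (m (i d)) - aQ Q)) ≤
      Cart.ent (star2 Q m) (fun ω => ω.2) := by
  have h1 := subm (star2_nn hE m) (A := fun ω => ω.2)
    (B := fun ω => (ω.1, fun d => ω.2 (i d))) (C := fun ω => ω)
    (D := fun ω => fun d => ω.2 (i d))
    (fun x y h h' => by
      simp only [Prod.mk.injEq] at h'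
      exact Prod.ext h'.1 h)
    (fun x y h => by
      funext d
      exact congrFun h (i d))
    (fun x y h => by
      simp only [Prod.mk.injEq] at h
      exact h.2)
  rw [ent_star2 hE, ent_star2_inj hE m hi] at h1
  linarith

/-- the entropy of the ends is at most that of independent ends -/
theorem ent_star2_le (hE : Edge Q) (m : V → ℕ) (i : D → V) :
    Cart.ent (star2 Q m) (fun ω => fun d => ω.2 (i d)) ≤ Fintype.card D * aQ Q := by
  have h := ent_pi_le (star2_nn hE m) (star2_tot hE m) (fun ω (d : D) => ω.2 (i d))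
  refine h.trans (le_of_eq ?_)
  have h1 : ∀ d, Cart.ent (star2 Q m) (fun ω => ω.2 (i d)) = aQ Q := fun d => by
    unfold aQ
    refine ent_law fun a => ?_
    rw [mar_star2_end hE, mar_id]
  rw [sum_congr rfl fun d _ => h1 d, sum_const, card_univ, nsmul_eq_mul]

end main

end Vale.Agent.P050.H340.Sub
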